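import Vale.Agent.P281.H737.Gen.Crit
import Vale.Agent.P281.H413.TZ.Gen

/-!
# P281, project T-GF (helper969): an `(n - 1)`-dimensional germ in a hypersurface
-/

open Set Filter Metric
open Vale.Agent.P281.H64 (Cm)
open scoped Topology

set_option linter.all false

noncomputable section

namespace Vale.Agent.P281.H969.TGF

theorem exists_functional {n : ℕ} (hn : 0 < n) (R : Submodule ℂ (Cm n))
    (h : n ≤ Module.finrank ℂ R + 1) :
    ∃ b : Cm n →ₗ[ℂ] ℂ, b ≠ 0 ∧ LinearMap.ker b ≤ R := by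
  have hfin : Module.finrank ℂ (Cm n) = n := by simp
  by_cases hR : R = ⊤
  · have : Nonempty (Fin n) := ⟨⟨0, hn⟩⟩
    refine ⟨LinearMap.proj (⟨0, hn⟩ : Fin n), ?_, ?_⟩
    · intro h0
      have h1 := congrArg (fun T : Cm n →ₗ[ℂ] ℂ => T (fun _ => 1)) h0
      simp at h1
    · rw [hR]; exact le_top
  · obtain ⟨b, hb, hle⟩ := Submodule.exists_le_ker_of_lt_top R (lt_top_iff_ne_top.2 hR)
    refine ⟨b, hb, ?_⟩
    have h1 : Module.finrank ℂ (LinearMap.ker b) < n := by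
      have h2 : LinearMap.ker b ≠ ⊤ := fun h => hb (LinearMap.ker_eq_top.1 h)
      have h3 := Submodule.finrank_lt h2
      rwa [hfin] at h3
    have h4 : R = LinearMap.ker b := Submodule.eq_of_le_of_finrank_le hle (by omega)
    exact h4.ge

/-- **the key lemma** -/
theorem key {n : ℕ} (hn : 0 < n) {V : Type} [NormedAddCommGroup V] [NormedSpace ℂ V]
    [FiniteDimensional ℂ V] {e G : Cm n → ℂ} {φ : V → Cm n} {x : V} (hφ : AnalyticAt ℂ φ x)
    (he : AnalyticAt ℂ e (φ x)) (hne : ¬ ∀ᶠ z in 𝓝 (φ x), e z = 0)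
    (h0 : ∀ᶠ v in 𝓝 x, e (φ v) = 0 ∧ G (φ v) = 0)
    (hr : n ≤ Module.finrank ℂ (LinearMap.range (fderiv ℂ φ x : V →ₗ[ℂ] Cm n)) + 1) :
    ∃ᶠ w in 𝓝 (φ x), e w = 0 ∧ ∀ᶠ z in 𝓝 w, e z = 0 → G z = 0 := by
  have : CompleteSpace V := FiniteDimensional.complete ℂ V
  set L := fderiv ℂ φ x with hL
  obtain ⟨b, hb0, hbR⟩ := exists_functional hn _ hr
  obtain ⟨c, hc⟩ : ∃ c, b c = 1 := by
    have h1 : ∃ c, b c ≠ 0 := by
      by_contra h
      push Not at h
      exact hb0 (LinearMap.ext h)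
    obtain ⟨c, hc⟩ := h1
    exact ⟨(b c)⁻¹ • c, by rw [map_smul, smul_eq_mul, inv_mul_cancel₀ hc]⟩
  -- the projection to the kernel, and its lift
  have hlift : ∃ a : Cm n →ₗ[ℂ] V, ∀ w, L (a w) = w - b w • c := by
    let π : Cm n →ₗ[ℂ] Cm n := LinearMap.id - (LinearMap.toSpanSingleton ℂ (Cm n) c).comp b
    have hπ : ∀ w, π w = w - b w • c := fun w => by
      simp [π, LinearMap.toSpanSingleton_apply]
    have hπR : ∀ w, π w ∈ LinearMap.range (L : V →ₗ[ℂ] Cm n) := by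
      intro w
      refine hbR ?_
      rw [LinearMap.mem_ker, hπ, map_sub, map_smul, hc, smul_eq_mul, mul_one, sub_self]
    let π' : Cm n →ₗ[ℂ] LinearMap.range (L : V →ₗ[ℂ] Cm n) := LinearMap.codRestrict _ π hπR
    obtain ⟨σ, hσ⟩ := (LinearMap.rangeRestrict (L : V →ₗ[ℂ] Cm n)).exists_rightInverse_of_surjective
      (LinearMap.range_rangeRestrict _)
    refine ⟨σ.comp π', fun w => ?_⟩
    have h1 := congrArg (fun T => T (π' w)) hσ
    have h2 := congrArg Subtype.val h1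
    have h3 : (LinearMap.rangeRestrict (L : V →ₗ[ℂ] Cm n) (σ (π' w)) : Cm n) = L (σ (π' w)) := rfl
    have h4 : (π' w : Cm n) = π w := rfl
    have h5 : L (σ (π' w)) = (π' w : Cm n) := by
      rw [← h3]
      exact h2
    rw [LinearMap.comp_apply, h5, h4, hπ]
  obtain ⟨a, ha⟩ := hlift
  let a' : Cm n →L[ℂ] V := LinearMap.toContinuousLinearMap a
  let b' : Cm n →L[ℂ] ℂ := LinearMap.toContinuousLinearMap b
  have ha' : ∀ w, L (a' w) = w - b' w • c := ha
  set Ψ : Cm n → Cm n := fun w => φ (x + a' w) + b' w • c with hΨ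
  have hΨa : AnalyticAt ℂ Ψ 0 := by
    have h1 : AnalyticAt ℂ (fun w : Cm n => x + a' w) 0 := analyticAt_const.add (a'.analyticAt 0)
    have h2 : AnalyticAt ℂ φ (x + a' 0) := by simpa using hφ
    exact (AnalyticAt.fun_comp (g := φ) (f := fun w : Cm n => x + a' w) h2 h1).add
      ((b'.analyticAt 0).smul analyticAt_const)
  have hΨd : HasFDerivAt Ψ (ContinuousLinearMap.id ℂ (Cm n)) 0 := by
    have h1 : HasFDerivAt (fun w : Cm n => x + a' w) a' 0 := a'.hasFDerivAt.const_add x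
    have h2 : HasFDerivAt φ L (x + a' 0) := by
      simpa using hφ.differentiableAt.hasFDerivAt
    have h3 := h2.comp (0 : Cm n) h1
    have h4 : HasFDerivAt (fun w : Cm n => b' w • c) (b'.smulRight c) 0 :=
      (b'.smulRight c).hasFDerivAt
    have h5 := h3.add h4
    refine h5.congr_fderiv ?_
    ext1 w
    show L (a' w) + b' w • c = w
    rw [ha', sub_add_cancel]
  have hΨ0 : Ψ 0 = φ x := by simp [hΨ]
  obtain ⟨θ, hθ, hθ0, hθΨ⟩ := H737.Gen.exists_inv hΨa hΨd
  rw [hΨ0] at hθ hθ0 hθΨ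
  set m : Cm n → ℂ := fun z => b' (θ z) with hm
  have hma : AnalyticAt ℂ m (φ x) := AnalyticAt.fun_comp (g := b') (f := θ) (b'.analyticAt _) hθ
  have hm0 : m (φ x) = 0 := by
    show b' (θ (φ x)) = 0
    rw [hθ0, map_zero]
  have hmd : fderiv ℂ m (φ x) ≠ 0 := by
    have h1 : HasFDerivAt θ (fderiv ℂ θ (φ x)) (φ x) := hθ.differentiableAt.hasFDerivAt
    have h2 : HasFDerivAt Ψ (ContinuousLinearMap.id ℂ (Cm n)) (θ (φ x)) := by rw [hθ0]; exact hΨd
    have h3 := h2.comp (φ x) h1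
    have h4 : HasFDerivAt (fun z => z) (ContinuousLinearMap.id ℂ (Cm n)) (φ x) := hasFDerivAt_id _
    have h5 : (fun z => z) =ᶠ[𝓝 (φ x)] (Ψ ∘ θ) := hθΨ.mono fun z hz => hz.symm
    have h6 := (h3.congr_of_eventuallyEq h5).unique h4
    have h7 : fderiv ℂ m (φ x) = b'.comp (fderiv ℂ θ (φ x)) :=
      (b'.hasFDerivAt.comp (φ x) h1).fderiv
    rw [h7]
    intro h8
    have h9 := congrArg (fun T : Cm n →L[ℂ] ℂ => T c) h8
    have h10 := congrArg (fun T : Cm n →L[ℂ] Cm n => T c) h6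
    have h11 : fderiv ℂ θ (φ x) c = c := h10
    have h12 : b' (fderiv ℂ θ (φ x) c) = 0 := h9
    rw [h11] at h12
    have h13 : b' c = 1 := hc
    rw [h13] at h12
    exact one_ne_zero h12
  -- the zeros of `m` are in the image of `φ`
  have himg : ∀ᶠ z in 𝓝 (φ x), m z = 0 → e z = 0 ∧ G z = 0 := by
    have h1 : Tendsto (fun z => x + a' (θ z)) (𝓝 (φ x)) (𝓝 x) := by
      have h2 : ContinuousAt (fun z => x + a' (θ z)) (φ x) :=
        continuousAt_const.add (a'.continuous.continuousAt.comp hθ.continuousAt)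
      have h3 := h2.tendsto
      rwa [hθ0, map_zero, add_zero] at h3
    filter_upwards [hθΨ, h1.eventually h0] with z h2 h3 h4
    have h5 : φ (x + a' (θ z)) = z := by
      have h6 : φ (x + a' (θ z)) + b' (θ z) • c = z := h2
      have h7 : b' (θ z) = 0 := h4
      rwa [h7, zero_smul, add_zero] at h6
    rwa [h5] at h3
  obtain ⟨k, u, hu, hev, hfr⟩ := H413.TZ.exists_pow hma hm0 hmd he hne
  have hev' := hev.eventually_nhds
  have himg' := himg.eventually_nhds
  have hua : ∀ᶠ z in 𝓝 (φ x), ContinuousAt u z := hu.eventually_continuousAt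
  refine (hfr.and_eventually (hev'.and (himg'.and hua))).mono ?_
  rintro w ⟨⟨hw1, hw2⟩, hw3, hw4, hw5⟩
  refine ⟨(hw4.self_of_nhds hw1).1, ?_⟩
  filter_upwards [hw3, hw4, hw5.eventually_ne hw2] with z h1 h2 h3 h4
  rw [h1] at h4
  have h5 : m z = 0 := by
    rcases mul_eq_zero.1 h4 with h6 | h6
    · exact (pow_eq_zero_iff (fun hk => by
        rw [hk, pow_zero] at h6; exact one_ne_zero h6)).1 h6
    · exact absurd h6 h3
  exact (h2 h5).2

end Vale.Agent.P281.H969.TGF
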