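import Vale.Agent.P281.H349.TM.Good
import Vale.Agent.P281.H713.SA.G5
import Vale.Agent.P281.H105.TM.Flat
import Vale.Agent.P281.H511.Gen.Prime

/-!
# P281, project T-GF (helper969): prime divisors which are not over a small set
-/

open Set Filter Metric Vale.Agent.P281 Vale.Agent.P281.H713 Vale.Agent.P281.H64
open Vale.Agent.P281.H349.TM (SubAt subAt_iff analytic_nsub)
open Vale.Agent.P281.H64.Gen (IsSmallSet IsAnalyticSet)
open Vale.Agent.P281.H511.Gen (sm subset_of_eventually subset_closure_sm isLocalEq_mem_iff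
  isLocalEq_holAt isLocalEq_eventually)
open scoped Topology ContDiff Manifold

set_option linter.all false

noncomputable section

namespace Vale.Agent.P281.H969.TGF

variable {n q : ℕ} {X Y : Type} [TopologicalSpace X] [ChartedSpace (Cm n) X]
  [IsManifold 𝓘(ℂ, Cm n) ω X] [TopologicalSpace Y] [ChartedSpace (Cm q) Y]
  [IsManifold 𝓘(ℂ, Cm q) ω Y]

/-- `f|D` is open at a point where it is submersive -/
theorem open_pair {f : X → Y} {D : Set X} {z : X} (hf : HolM (Cm n) (Cm q) f z) (hz : z ∈ D)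
    {e : X → ℂ} (he : J.IsLocalEq (Cm n) D e z) (hs : SubAt n q D f z) {T : Set X}
    (hT : T ∈ 𝓝 z) : ∀ᶠ y in 𝓝 (f z), ∃ w ∈ T, w ∈ D ∧ f w = y := by
  set φ := chartAt (Cm n) z with hφ
  set ψ := chartAt (Cm q) (f z) with hψ
  have hzs : z ∈ φ.source := mem_chart_source (Cm n) z
  have hy : f z ∈ ψ.source := mem_chart_source (Cm q) (f z)
  have hψf : HolV (Cm n) (fun w => ψ (f w)) z := HolV.comp (h := (ψ : Y → Cm q)) (HolV.chart hy) hf
  have heh : HolV (Cm n) e z := isLocalEq_holAt he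
  have h1 : ContDiffAt ℂ ω ((fun w => ψ (f w)) ∘ φ.symm) (φ z) := hψf.rep hzs
  have h1' : ContDiffAt ℂ ω (e ∘ φ.symm) (φ z) := heh.rep hzs
  have h2 := dV_eq_chart hzs hψf
  have h2' := dV_eq_chart hzs heh
  have h3 := dV_comp (h := (ψ : Y → Cm q)) (HolV.chart hy) hf
  have hz0 : e z = 0 := (isLocalEq_mem_iff he).self_of_nhds.1 hz
  have hsurj' := (subAt_iff hz he).1 hs
  set F : Cm n → ℂ × Cm q := fun v => ((e ∘ φ.symm) v, ((fun w => ψ (f w)) ∘ φ.symm) v) with hF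
  have hFd : HasFDerivAt F ((fderiv ℂ (e ∘ φ.symm) (φ z)).prod
      (fderiv ℂ ((fun w => ψ (f w)) ∘ φ.symm) (φ z))) (φ z) :=
    (h1'.differentiableAt (by simp)).hasFDerivAt.prodMk (h1.differentiableAt (by simp)).hasFDerivAt
  have hFc : ContDiffAt ℂ ω F (φ z) := h1'.prodMk h1
  have hsurj : Function.Surjective ((fderiv ℂ (e ∘ φ.symm) (φ z)).prod
      (fderiv ℂ ((fun w => ψ (f w)) ∘ φ.symm) (φ z))) := by
    rintro ⟨a, y⟩
    obtain ⟨v, hv⟩ := (H349.TM.chart_bij hy).2 y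
    obtain ⟨u, hu⟩ := hsurj' (a, v)
    have hu1 : J.dif (Cm n) e z u = a := congrArg Prod.fst hu
    have hu2 : dM (Cm n) (Cm q) f z u = v := congrArg Prod.snd hu
    refine ⟨dV (Cm n) (φ : X → Cm n) z u, ?_⟩
    have h4 := congrArg (fun T : Cm n →L[ℂ] Cm q => T u) h2
    have h4' := congrArg (fun T : Cm n →L[ℂ] ℂ => T u) h2'
    have h5 := congrArg (fun T : Cm n →L[ℂ] Cm q => T u) h3
    simp only [ContinuousLinearMap.comp_apply] at h4 h5 h4'
    refine Prod.ext ?_ ?_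
    · show fderiv ℂ (e ∘ φ.symm) (φ z) (dV (Cm n) (φ : X → Cm n) z u) = a
      rw [← h4', ← hu1]
      rfl
    · show fderiv ℂ ((fun w => ψ (f w)) ∘ φ.symm) (φ z) (dV (Cm n) (φ : X → Cm n) z u) = y
      rw [← h4, h5, hu2, hv]
  have h4 := (hFc.hasStrictFDerivAt' hFd (by simp)).map_nhds_eq_of_surj
    (LinearMap.range_eq_top.2 hsurj)
  have h5 : F (φ z) = (0, ψ (f z)) := by
    refine Prod.ext ?_ ?_
    · show e (φ.symm (φ z)) = 0
      rw [φ.left_inv hzs, hz0]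
    · show ψ (f (φ.symm (φ z))) = ψ (f z)
      rw [φ.left_inv hzs]
  rw [h5] at h4
  have hT' : {v | v ∈ φ.target ∧ φ.symm v ∈ T ∧ f (φ.symm v) ∈ ψ.source ∧
      (φ.symm v ∈ D ↔ e (φ.symm v) = 0)} ∈ 𝓝 (φ z) := by
    have h6 : Tendsto φ.symm (𝓝 (φ z)) (𝓝 z) := by
      have := (φ.continuousAt_symm (φ.map_source hzs)).tendsto
      rwa [φ.left_inv hzs] at this
    filter_upwards [φ.open_target.mem_nhds (φ.map_source hzs), h6.eventually hT,
      h6.eventually (hf.continuousAt.eventually (ψ.open_source.mem_nhds hy)),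
      h6.eventually (isLocalEq_mem_iff he)] with v h7 h8 h9 h10
    exact ⟨h7, h8, h9, h10⟩
  have h6 : F '' {v | v ∈ φ.target ∧ φ.symm v ∈ T ∧ f (φ.symm v) ∈ ψ.source ∧
      (φ.symm v ∈ D ↔ e (φ.symm v) = 0)} ∈ 𝓝 ((0 : ℂ), ψ (f z)) := by
    rw [← h4]
    exact image_mem_map hT'
  have h7 : ContinuousAt (fun y : Y => ((0 : ℂ), ψ y)) (f z) :=
    continuousAt_const.prodMk (ψ.continuousAt hy)
  filter_upwards [h7.eventually h6, ψ.open_source.mem_nhds hy] with y h8 h9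
  obtain ⟨v, ⟨hv1, hv2, hv3, hv4⟩, hv⟩ := h8
  have hv5 : e (φ.symm v) = 0 := congrArg Prod.fst hv
  have hv6 : ψ (f (φ.symm v)) = ψ y := congrArg Prod.snd hv
  exact ⟨φ.symm v, hv2, hv4.2 hv5, ψ.injOn hv3 h9 hv6⟩

/-- a function which vanishes on `f(D)` vanishes, if `f|D` is submersive -/
theorem zero_of_sub {f : X → Y} {D : Set X} {z : X} (hf : HolM (Cm n) (Cm q) f z) (hz : z ∈ D)
    {e : X → ℂ} (he : J.IsLocalEq (Cm n) D e z) (hs : SubAt n q D f z) {G : Y → ℂ}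
    (hG : ∀ᶠ w in 𝓝 z, w ∈ D → G (f w) = 0) : ∀ᶠ y in 𝓝 (f z), G y = 0 := by
  filter_upwards [open_pair hf hz he hs hG] with y hy
  obtain ⟨w, hw, hwD, rfl⟩ := hy
  exact hw hwD

/-- A prime divisor `D` such that `f(D)` is not small: no function `G` on `Y` which is nowhere locally
zero vanishes on `f(D)` near a point of `D`. -/
theorem not_vanish [T2Space X] [CompactSpace X] [T2Space Y] {f : X → Y}
    (hf : ContMDiff 𝓘(ℂ, Cm n) 𝓘(ℂ, Cm q) ω f) {D : Set X} (hD : J.IsPrime (Cm n) D)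
    (hns : ¬ IsSmallSet (Cm q) (f '' D)) {G : Y → ℂ} {x : X} (hx : x ∈ D)
    (hG : ∀ᶠ y in 𝓝 (f x), ¬ ∀ᶠ y' in 𝓝 y, G y' = 0) :
    ¬ ∀ᶠ w in 𝓝 x, w ∈ D → G (f w) = 0 := by
  intro hcon
  have hA := analytic_nsub (n := n) (q := q) hf hD.2.1
  have hx' := subset_closure_sm hD.2.1 hx
  rw [mem_closure_iff_frequently] at hx'
  obtain ⟨z, hz, hz1, hz2⟩ := (hx'.and_eventually
    (hcon.eventually_nhds.and (hf.continuous.continuousAt.eventually hG.eventually_nhds))).exists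
  have h1 : D ⊆ {w | w ∈ D ∧ ¬ SubAt n q D f w} := by
    refine subset_of_eventually hD hA hz ?_
    filter_upwards [hz1.eventually_nhds, hf.continuous.continuousAt.eventually hz2] with w h2 h3 h4
    refine ⟨h4, fun h5 => ?_⟩
    obtain ⟨e, he⟩ := hD.2.1 w
    exact h3 (zero_of_sub (hf w) h4 he h5 h2)
  apply hns
  refine H105.TM.flat hf hD.1 hD.2.1 ?_
  intro w hw e he hde hsub
  exact (h1 hw).2 ⟨e, he, hde, hsub⟩

end Vale.Agent.P281.H969.TGF
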