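import Vale.Agent.P281.H969.TGF.Key
import Vale.Agent.P281.H969.TGF.Sub
import Vale.Agent.P281.H624.TM.ZerF
import Vale.Agent.P281.H456.TGB.Hyp
import Vale.Agent.P281.H383.TGF.Main

/-!
# P281, project T-GF (helper969): the image of the horizontal part of a hypersurface
-/

open Set Filter Metric Vale.Agent.P281 Vale.Agent.P281.H713 Vale.Agent.P281.H64
open Vale.Agent.P281.H64.Gen (IsSmallSet IsSmall2 IsAnalyticSet)
open Vale.Agent.P281.H64.Thin (IsThinSet)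
open Vale.Agent.P281.H737.Gen (SThin2 IsThin2 RkLe core2 thin2_chart)
open Vale.Agent.P281.H150.Gen (AnIn holAt_chart holAt_symm)
open Vale.Agent.P281.H511.Gen (isLocalEq_not_zero isLocalEq_mem_iff isLocalEq_holAt)
open scoped Topology ContDiff Manifold

set_option linter.all false

noncomputable section

namespace Vale.Agent.P281.H969.TGF

theorem nlz {q : ℕ} {Y : Type} [TopologicalSpace Y] [ChartedSpace (Cm q) Y]
    [IsManifold 𝓘(ℂ, Cm q) ω Y] {g : Y → ℂ} {y : Y} (hg : HolV (Cm q) g y)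
    (h : ¬ ∀ᶠ z in 𝓝 y, g z = 0) : ∀ᶠ y' in 𝓝 y, ¬ ∀ᶠ z in 𝓝 y', g z = 0 := by
  set ψ := chartAt (Cm q) y with hψ
  have hy : y ∈ ψ.source := mem_chart_source _ y
  have h1 : ∀ᶠ v in 𝓝 (ψ y), AnalyticAt ℂ (g ∘ ψ.symm) v :=
    (ContDiffAt.analyticAt (hg.rep hy)).eventually_analyticAt
  obtain ⟨ρ, hρ, hball⟩ := Metric.eventually_nhds_iff_ball.1
    (h1.and (ψ.open_target.mem_nhds (ψ.map_source hy)))
  filter_upwards [ψ.open_source.mem_nhds hy,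
    (ψ.continuousAt hy).eventually (ball_mem_nhds _ hρ)] with y' hy1 hy2 hcon
  apply h
  have h3 : AnalyticOnNhd ℂ (g ∘ ψ.symm) (ball (ψ y) ρ) := fun v hv => (hball v hv).1
  have h4 : (g ∘ ψ.symm) =ᶠ[𝓝 (ψ y')] 0 := by
    have h5 : Tendsto ψ.symm (𝓝 (ψ y')) (𝓝 y') := by
      have := (ψ.continuousAt_symm (ψ.map_source hy1)).tendsto
      rwa [ψ.left_inv hy1] at this
    exact h5.eventually hcon
  have h5 := h3.eqOn_zero_of_preconnected_of_eventuallyEq_zero (convex_ball _ _).isPreconnected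
    hy2 h4
  filter_upwards [ψ.open_source.mem_nhds hy,
    (ψ.continuousAt hy).eventually (ball_mem_nhds _ hρ)] with z hz1 hz2
  have h6 := h5 hz2
  simpa [ψ.left_inv hz1] using h6

variable {n q : ℕ} {X₁ X Y : Type} [TopologicalSpace X₁] [T2Space X₁] [CompactSpace X₁]
  [ChartedSpace (Cm n) X₁] [IsManifold 𝓘(ℂ, Cm n) ω X₁] [TopologicalSpace X] [T2Space X]
  [ChartedSpace (Cm n) X] [IsManifold 𝓘(ℂ, Cm n) ω X] [TopologicalSpace Y] [T2Space Y]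
  [ChartedSpace (Cm q) Y] [IsManifold 𝓘(ℂ, Cm q) ω Y]

/-- the local statement -/
theorem local_thin (hn : 0 < n) {u : X₁ → X} (hsm : ContMDiff 𝓘(ℂ, Cm n) 𝓘(ℂ, Cm n) ω u)
    {h : X₁ → Y} (hh : ContMDiff 𝓘(ℂ, Cm n) 𝓘(ℂ, Cm q) ω h) {P : Set X₁}
    (hP : J.IsPrime (Cm n) P) (hns : ¬ IsSmallSet (Cm q) (h '' P)) {H : Set Y}
    (hH : IsThinSet (Cm q) H) (x : X₁) :
    ∃ N ∈ 𝓝 x, SThin2 (Cm n) (u '' (P ∩ h ⁻¹' H ∩ N)) := by
  obtain ⟨g, hg, hg0, hgH⟩ := hH.2 (h x)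
  have hgh : HolV (Cm q) g (h x) := hg
  obtain ⟨O, hO, hOo, hxO⟩ := mem_nhds_iff.1
    ((hgh.eventually.and (nlz hgh hg0)).and hgH)
  have hOn : ∀ y ∈ O, ∀ᶠ y' in 𝓝 y, ¬ ∀ᶠ z in 𝓝 y', g z = 0 := fun y hy => by
    filter_upwards [hOo.mem_nhds hy] with y' hy' using (hO hy').1.2
  obtain ⟨e, V, hVo, hxV, hV1, hV2, hV3⟩ := hP.2.1 x
  have hleq : ∀ z ∈ V, J.IsLocalEq (Cm n) P e z := fun z hz => ⟨V, hVo, hz, hV1, hV2, hV3⟩
  set φ := chartAt (Cm n) x with hφx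
  set ψ := chartAt (Cm n) (u x) with hψy
  have hxs : x ∈ φ.source := mem_chart_source _ _
  set V' : Set X₁ := u ⁻¹' ψ.source ∩ V ∩ h ⁻¹' O with hV'
  have hV'o : IsOpen V' := ((ψ.open_source.preimage hsm.continuous).inter hVo).inter
    (hOo.preimage hh.continuous)
  have hxV' : x ∈ V' := ⟨⟨mem_chart_source _ _, hxV⟩, hxO⟩
  set W : Set (Cm n) := φ.target ∩ φ.symm ⁻¹' V' with hW
  have hWo : IsOpen W := ContinuousOn.isOpen_inter_preimage φ.continuousOn_symm φ.open_target hV'o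
  set F : Cm n → Cm n := fun v => ψ (u (φ.symm v)) with hF
  have hφm : ∀ v ∈ W, ContMDiffAt 𝓘(ℂ, Cm n) 𝓘(ℂ, Cm n) ω φ.symm v := fun v hv => holAt_symm hv.1
  have hFa : ∀ v ∈ W, AnalyticAt ℂ F v := by
    intro v hv
    have h0 : ContMDiffAt 𝓘(ℂ, Cm n) 𝓘(ℂ, Cm n) ω (fun v => u (φ.symm v)) v :=
      ContMDiffAt.comp v (hsm _) (hφm v hv)
    have h1 : ContMDiffAt 𝓘(ℂ, Cm n) 𝓘(ℂ, Cm n) ω F v :=
      ContMDiffAt.comp v (holAt_chart hv.2.1.1) h0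
    exact (contMDiffAt_iff_contDiffAt.1 h1).analyticAt
  have hea : ∀ v ∈ W, AnalyticAt ℂ (fun v => e (φ.symm v)) v := by
    intro v hv
    have h1 : ContMDiffAt 𝓘(ℂ, Cm n) 𝓘(ℂ, ℂ) ω (fun v => e (φ.symm v)) v :=
      ContMDiffAt.comp v (show ContMDiffAt 𝓘(ℂ, Cm n) 𝓘(ℂ, ℂ) ω e _ from hV1 _ hv.2.1.2) (hφm v hv)
    exact (contMDiffAt_iff_contDiffAt.1 h1).analyticAt
  have hga : ∀ v ∈ W, AnalyticAt ℂ (fun v => g (h (φ.symm v))) v := by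
    intro v hv
    have h0 : ContMDiffAt 𝓘(ℂ, Cm n) 𝓘(ℂ, Cm q) ω (fun v => h (φ.symm v)) v :=
      ContMDiffAt.comp v (hh _) (hφm v hv)
    have h1 : ContMDiffAt 𝓘(ℂ, Cm n) 𝓘(ℂ, ℂ) ω (fun v => g (h (φ.symm v))) v :=
      ContMDiffAt.comp v (show ContMDiffAt 𝓘(ℂ, Cm q) 𝓘(ℂ, ℂ) ω g _ from (hO hv.2.2).1.1) h0
    exact (contMDiffAt_iff_contDiffAt.1 h1).analyticAt
  set A : Set (Cm n) := {v | e (φ.symm v) = 0 ∧ g (h (φ.symm v)) = 0} with hA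
  have hAn : AnIn W A := by
    intro z hz
    refine ⟨W, Bool, fun b => if b then fun v => e (φ.symm v) else fun v => g (h (φ.symm v)), hWo,
      hz, ?_, ?_⟩
    · rintro (b | b) w hw
      · exact hga w hw
      · exact hea w hw
    · intro w hw
      constructor
      · rintro ⟨h1, h2⟩ (b | b)
        · exact h2
        · exact h1
      · intro h1
        exact ⟨h1 true, h1 false⟩
  have hrk : RkLe W A F := by
    intro V₁ _ _ _ W₁ φ₁ hW₁ hφ₁ x₁ hx₁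
    by_contra hcon
    obtain ⟨hφa, hφA, hφW⟩ := hφ₁ x₁ hx₁
    have hrank : n ≤ Module.finrank ℂ (LinearMap.range (fderiv ℂ φ₁ x₁ : V₁ →ₗ[ℂ] Cm n)) + 1 := by
      have h1 : fderiv ℂ (fun v => F (φ₁ v)) x₁ = (fderiv ℂ F (φ₁ x₁)).comp (fderiv ℂ φ₁ x₁) :=
        fderiv_comp' x₁ (hFa _ hφW).differentiableAt hφa.differentiableAt
      have h2 : LinearMap.range (fderiv ℂ (fun v => F (φ₁ v)) x₁ : V₁ →ₗ[ℂ] Cm n) =
          (LinearMap.range (fderiv ℂ φ₁ x₁ : V₁ →ₗ[ℂ] Cm n)).map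
            (fderiv ℂ F (φ₁ x₁) : Cm n →ₗ[ℂ] Cm n) := by
        rw [h1]
        exact LinearMap.range_comp _ _
      rw [h2] at hcon
      have h3 := Submodule.finrank_map_le (fderiv ℂ F (φ₁ x₁) : Cm n →ₗ[ℂ] Cm n)
        (LinearMap.range (fderiv ℂ φ₁ x₁ : V₁ →ₗ[ℂ] Cm n))
      omega
    have hTd : ∀ w ∈ W, Tendsto φ (𝓝 (φ.symm w)) (𝓝 w) := fun w hw => by
      have := (φ.continuousAt (φ.map_target hw.1)).tendsto
      rwa [φ.right_inv hw.1] at this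
    have hne : ¬ ∀ᶠ z in 𝓝 (φ₁ x₁), (fun v => e (φ.symm v)) z = 0 := by
      intro h1
      apply isLocalEq_not_zero (hleq _ hφW.2.1.2)
      filter_upwards [(hTd _ hφW).eventually h1, φ.open_source.mem_nhds (φ.map_target hφW.1)]
        with z h2 h3
      simpa [φ.left_inv h3] using h2
    have h0 : ∀ᶠ v in 𝓝 x₁, (fun v => e (φ.symm v)) (φ₁ v) = 0 ∧
        (fun v => g (h (φ.symm v))) (φ₁ v) = 0 := by
      filter_upwards [hW₁.mem_nhds hx₁] with v hv using (hφ₁ v hv).2.1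
    have hkey := key hn (e := fun v => e (φ.symm v)) (G := fun v => g (h (φ.symm v))) hφa (hea _ hφW) hne h0 hrank
    obtain ⟨w, ⟨hw1, hw2⟩, hw3⟩ := (hkey.and_eventually (hWo.mem_nhds hφW)).exists
    have hwP : φ.symm w ∈ P := (hV2 _ hw3.2.1.2).2 hw1
    refine not_vanish hh hP hns hwP (hOn _ hw3.2.2) ?_
    filter_upwards [(hTd w hw3).eventually hw2, φ.open_source.mem_nhds (φ.map_target hw3.1),
      hVo.mem_nhds hw3.2.1.2] with z h1 h2 h3 h4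
    have h5 := h1 (by
      show e (φ.symm (φ z)) = 0
      rw [φ.left_inv h2]
      exact (hV2 z h3).1 h4)
    simpa [φ.left_inv h2] using h5
  obtain ⟨HH, hHH, hcov⟩ := core2 _ (Cm n) rfl W A F hWo hFa hAn hrk
  have hyt : ψ (u x) ∈ ψ.target := ψ.map_source (mem_chart_source _ _)
  obtain ⟨ρ, hρ, hρt⟩ := Metric.nhds_basis_closedBall.mem_iff.1 (ψ.open_target.mem_nhds hyt)
  refine ⟨{x' | x' ∈ φ.source ∧ x' ∈ V' ∧ ψ (u x') ∈ closedBall (ψ (u x)) ρ}, ?_, ?_⟩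
  · have h2 : ContinuousAt (fun x' => ψ (u x')) x :=
      ContinuousAt.comp (g := ψ) (ψ.continuousAt (mem_chart_source _ _))
        hsm.continuous.continuousAt
    exact (φ.open_source.eventually_mem hxs).and ((hV'o.eventually_mem hxV').and
      (h2.eventually (closedBall_mem_nhds _ hρ)))
  · refine ⟨fun k => ψ.symm '' (HH k ∩ closedBall (ψ (u x)) ρ), fun k =>
      thin2_chart (u x) (isCompact_closedBall _ _) hρt (hHH k), ?_⟩
    rintro _ ⟨x', ⟨⟨hx'P, hx'H⟩, hx'1, hx'2, hx'3⟩, rfl⟩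
    have h1 : φ.symm (φ x') = x' := φ.left_inv hx'1
    have h3 : φ x' ∈ W := ⟨φ.map_source hx'1, by
      show φ.symm (φ x') ∈ V'
      rw [h1]; exact hx'2⟩
    have h2 : ψ (u x') ∈ F '' (A ∩ W) := by
      refine ⟨φ x', ⟨⟨?_, ?_⟩, h3⟩, ?_⟩
      · show e (φ.symm (φ x')) = 0
        rw [h1]
        exact (hV2 x' hx'2.1.2).1 hx'P
      · show g (h (φ.symm (φ x'))) = 0
        rw [h1]
        exact (hO hx'2.2).2 hx'H
      · show ψ (u (φ.symm (φ x'))) = ψ (u x')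
        rw [h1]
    obtain ⟨k, hk⟩ := mem_iUnion.1 (hcov h2)
    exact mem_iUnion.2 ⟨k, ψ (u x'), ⟨hk, hx'3⟩, ψ.left_inv hx'2.1.1⟩

/-- the part of a prime divisor over a small set has an image of codimension two -/
theorem thin_of_small (hn : 0 < n) {u : X₁ → X} (hsm : ContMDiff 𝓘(ℂ, Cm n) 𝓘(ℂ, Cm n) ω u)
    {h : X₁ → Y} (hh : ContMDiff 𝓘(ℂ, Cm n) 𝓘(ℂ, Cm q) ω h) {P : Set X₁}
    (hP : J.IsPrime (Cm n) P) (hns : ¬ IsSmallSet (Cm q) (h '' P)) {S : Set Y}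
    (hS : IsSmallSet (Cm q) S) : SThin2 (Cm n) (u '' (P ∩ h ⁻¹' S)) := by
  obtain ⟨H, hH, hsub⟩ := hS.2
  have h1 : ∀ k, SThin2 (Cm n) (u '' (P ∩ h ⁻¹' H k)) := by
    intro k
    choose N hN hSN using local_thin hn hsm hh hP hns (hH k)
    obtain ⟨t, ht⟩ := CompactSpace.elim_nhds_subcover N hN
    refine (SThin2.iUnion (S := fun x : t => u '' (P ∩ h ⁻¹' H k ∩ N x)) fun x => hSN x).mono ?_
    rintro _ ⟨x, hx, rfl⟩
    have h1 : x ∈ ⋃ y ∈ t, N y := by rw [ht]; trivial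
    obtain ⟨y, hy, hxy⟩ := mem_iUnion₂.1 h1
    exact mem_iUnion.2 ⟨⟨y, hy⟩, x, ⟨hx, hxy⟩, rfl⟩
  refine (SThin2.iUnion h1).mono ?_
  rintro _ ⟨x, ⟨hxP, hxS⟩, rfl⟩
  obtain ⟨k, hk⟩ := mem_iUnion.1 (hsub hxS)
  exact mem_iUnion.2 ⟨k, x, ⟨hxP, hk⟩, rfl⟩

/-- **the horizontal part of the image of a hypersurface** -/
theorem vert (hn : 0 < n) {u : X₁ → X} (hsm : ContMDiff 𝓘(ℂ, Cm n) 𝓘(ℂ, Cm n) ω u)
    {f : X → Y} (hf : ContMDiff 𝓘(ℂ, Cm n) 𝓘(ℂ, Cm q) ω f) {Z : Set X₁}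
    (hZ : ∀ x, ∃ g : X₁ → ℂ, J.HolAt (Cm n) g x ∧ (¬ ∀ᶠ z in 𝓝 x, g z = 0) ∧
      ∀ᶠ z in 𝓝 x, z ∈ Z ↔ g z = 0) :
    ∃ S₀ : Set Y, IsSmallSet (Cm q) S₀ ∧ ∀ S, S₀ ⊆ S → IsClosed S →
      IsClosed (closure (u '' Z \ f ⁻¹' S)) ∧
      (∀ x, f x ∉ S → (x ∈ closure (u '' Z \ f ⁻¹' S) ↔ x ∈ u '' Z)) ∧
      H383.TGF.NoVert n q f (closure (u '' Z \ f ⁻¹' S)) := by
  classical
  obtain ⟨hfin, hcov⟩ := H624.TM.zerStmt n X₁ Z hZ
  have hh : ContMDiff 𝓘(ℂ, Cm n) 𝓘(ℂ, Cm q) ω (fun x => f (u x)) := hf.comp hsm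
  have hZc : IsClosed Z := by
    have h1 : Z = ⋃₀ {E : Set X₁ | J.IsPrime (Cm n) E ∧ E ⊆ Z} := by
      ext x
      constructor
      · intro hx
        obtain ⟨E, hE1, hE2, hE3⟩ := hcov x hx
        exact ⟨E, ⟨hE1, hE2⟩, hE3⟩
      · rintro ⟨E, ⟨-, hE2⟩, hE3⟩
        exact hE2 hE3
    rw [h1, sUnion_eq_biUnion]
    exact hfin.isClosed_biUnion fun E hE => hE.1.1
  set 𝒟 := {E : Set X₁ | J.IsPrime (Cm n) E ∧ E ⊆ Z} with h𝒟
  set 𝒱 := {E ∈ 𝒟 | IsSmallSet (Cm q) ((fun x => f (u x)) '' E)} with h𝒱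
  have h𝒱f : 𝒱.Finite := hfin.subset fun E hE => hE.1
  obtain ⟨S₀, hS₀, hS₀'⟩ : ∃ S₀ : Set Y, IsSmallSet (Cm q) S₀ ∧
      ∀ E ∈ 𝒱, (fun x => f (u x)) '' E ⊆ S₀ := by
    have h1 : ∀ 𝒲 : Set (Set X₁), 𝒲.Finite → (∀ E ∈ 𝒲, IsSmallSet (Cm q)
        ((fun x => f (u x)) '' E)) → ∃ S₀ : Set Y, IsSmallSet (Cm q) S₀ ∧
        ∀ E ∈ 𝒲, (fun x => f (u x)) '' E ⊆ S₀ := by
      intro 𝒲 hW
      induction 𝒲, hW using Set.Finite.induction_on with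
      | empty =>
        intro _
        refine ⟨∅, ⟨isClosed_empty, fun _ => ∅, fun _ => ⟨isClosed_empty, fun y =>
          ⟨fun _ => 1, contMDiffAt_const, fun h => one_ne_zero h.self_of_nhds,
            Filter.Eventually.of_forall fun z hz => hz.elim⟩⟩, fun _ h => h.elim⟩,
          fun E hE => hE.elim⟩
      | @insert E 𝒲 _ hfin ih =>
        intro hall
        obtain ⟨S₀, h1, h2⟩ := ih fun E hE => hall E (mem_insert_of_mem _ hE)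
        refine ⟨S₀ ∪ (fun x => f (u x)) '' E, h1.union (hall E (mem_insert _ _)), ?_⟩
        rintro E' (rfl | hE')
        · exact subset_union_right
        · exact (h2 E' hE').trans subset_union_left
    exact h1 𝒱 h𝒱f fun E hE => hE.2
  refine ⟨S₀, hS₀, fun S hSS hSc => ⟨isClosed_closure, ?_, ?_⟩⟩
  · have huZ : IsClosed (u '' Z) := (hZc.isCompact.image hsm.continuous).isClosed
    intro x hx
    constructor
    · intro h1
      exact closure_minimal diff_subset huZ h1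
    · intro h1
      exact subset_closure ⟨h1, hx⟩
  · intro S' hS' g x hg hg0 hgS
    -- the horizontal primes
    set 𝒬 := {E ∈ 𝒟 | ¬ IsSmallSet (Cm q) ((fun x => f (u x)) '' E)} with h𝒬
    have h𝒬f : 𝒬.Finite := hfin.subset fun E hE => hE.1
    set B : Set X := ⋃ E ∈ 𝒬, u '' (E ∩ (fun x => f (u x)) ⁻¹' S') with hB
    have hKsub : closure (u '' Z \ f ⁻¹' S) ⊆ ⋃ E ∈ 𝒬, u '' E := by
      refine closure_minimal ?_ ?_
      · rintro _ ⟨⟨z, hz, rfl⟩, hzS⟩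
        obtain ⟨E, hE1, hE2, hE3⟩ := hcov z hz
        refine mem_iUnion₂.2 ⟨E, ⟨⟨hE1, hE2⟩, fun h1 => ?_⟩, z, hE3, rfl⟩
        exact hzS (hSS (hS₀' E ⟨⟨hE1, hE2⟩, h1⟩ ⟨z, hE3, rfl⟩))
      · exact h𝒬f.isClosed_biUnion fun E hE =>
          (hE.1.1.1.isCompact.image hsm.continuous).isClosed
    have hB2 : IsSmall2 (Cm n) B := by
      refine ⟨?_, ?_⟩
      · refine h𝒬f.isClosed_biUnion fun E hE => ?_
        exact ((hE.1.1.1.inter (hS'.1.preimage hh.continuous)).isCompact.image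
          hsm.continuous).isClosed
      · have h1 : SThin2 (Cm n) B := by
          have : Countable 𝒬 := h𝒬f.countable.to_subtype
          refine (SThin2.iUnion (S := fun E : 𝒬 => u '' ((E : Set X₁) ∩
            (fun x => f (u x)) ⁻¹' S')) fun E => ?_).mono ?_
          · exact thin_of_small hn hsm hh E.2.1.1 E.2.2 hS'
          · intro z hz
            obtain ⟨E, hE, hz'⟩ := mem_iUnion₂.1 hz
            exact mem_iUnion.2 ⟨⟨E, hE⟩, hz'⟩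
        exact h1
    refine ((H456.TGB.hyp n X B g x hB2 hg hg0).and_eventually hgS).mono ?_
    rintro z ⟨⟨h1, h2⟩, h3⟩
    refine ⟨h1, fun h4 => h2 ?_⟩
    obtain ⟨E, hE, w, hw, hwz⟩ := mem_iUnion₂.1 (hKsub h4)
    refine mem_iUnion₂.2 ⟨E, hE, w, ⟨hw, ?_⟩, hwz⟩
    show f (u w) ∈ S'
    rw [hwz]
    exact h3 h1

end Vale.Agent.P281.H969.TGF
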